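import Mathlib

/-!
Deck transformations of the universal cover of a compact manifold.
-/

namespace Vale.Agent.P300

open Set Filter
open scoped Manifold ContDiff Topology

variable {E : Type} [NormedAddCommGroup E] [NormedSpace ℂ E] [FiniteDimensional ℂ E]
variable {X V : Type} [TopologicalSpace X] [CompactSpace X] [ChartedSpace E X]
variable [TopologicalSpace V] [T2Space V] [ChartedSpace E V] [SimplyConnectedSpace V]
variable {p : V → X}

omit [FiniteDimensional ℂ E] [CompactSpace X] [T2Space V] [SimplyConnectedSpace V] in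
theorem contMDiff_of_lift (hp : IsLocalDiffeomorph 𝓘(ℂ, E) 𝓘(ℂ, E) ω p) {γ : V → V}
    (hγ : Continuous γ) (h : p ∘ γ = p) : ContMDiff 𝓘(ℂ, E) 𝓘(ℂ, E) ω γ := by
  intro x
  have hpx : p (γ x) = p x := congr_fun h x
  have hl := (hp (γ x)).localInverse_contMDiffAt
  rw [hpx] at hl
  refine (hl.comp x hp.contMDiff.contMDiffAt).congr_of_eventuallyEq ?_
  filter_upwards [hγ.continuousAt.eventually (hp (γ x)).localInverse_eventuallyEq_left] with z hz
  simp only [Function.comp_apply, id] at hz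
  rw [show p (γ z) = p z from congr_fun h z] at hz
  simp [hz]

theorem exists_cocompact_deck (hcov : IsCoveringMap p) (hsurj : Function.Surjective p)
    (hp : IsLocalDiffeomorph 𝓘(ℂ, E) 𝓘(ℂ, E) ω p) :
    ∃ F : Set V, IsCompact F ∧ ∀ x, ∃ y ∈ F, ∃ γ δ : V → V,
      ContMDiff 𝓘(ℂ, E) 𝓘(ℂ, E) ω γ ∧ ContMDiff 𝓘(ℂ, E) 𝓘(ℂ, E) ω δ ∧
      (∀ z, γ (δ z) = z) ∧ δ y = x := by
  have : ProperSpace E := FiniteDimensional.proper ℂ E
  have : NormedSpace ℝ E := NormedSpace.restrictScalars ℝ ℂ E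
  have : LocallyPathConnectedSpace V := ChartedSpace.locallyPathConnectedSpace E V
  have : LocallyCompactSpace V := ChartedSpace.locallyCompactSpace E V
  obtain ⟨F, hF, hFX⟩ : ∃ F : Set V, IsCompact F ∧ (univ : Set X) ⊆ p '' F := by
    refine isCompact_univ.induction_on (p := fun S => ∃ F : Set V, IsCompact F ∧ S ⊆ p '' F)
      ⟨∅, isCompact_empty, empty_subset _⟩ ?_ ?_ ?_
    · rintro s t hst ⟨F, hF, ht⟩; exact ⟨F, hF, hst.trans ht⟩
    · rintro s t ⟨F, hF, hs⟩ ⟨G, hG, ht⟩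
      exact ⟨F ∪ G, hF.union hG, by rw [image_union]; exact union_subset_union hs ht⟩
    · intro b _
      obtain ⟨y, rfl⟩ := hsurj b
      obtain ⟨C, hC, hyC⟩ := exists_compact_mem_nhds y
      exact ⟨p '' C, mem_nhdsWithin_of_mem_nhds (hp.isOpenMap.image_mem_nhds hyC),
        C, hC, subset_rfl⟩
  refine ⟨F, hF, fun x => ?_⟩
  obtain ⟨y, hy, hyx⟩ := hFX (mem_univ (p x))
  let pc : C(V, X) := ⟨p, hcov.continuous⟩
  obtain ⟨δ, ⟨hδy, hδ⟩, -⟩ := hcov.existsUnique_continuousMap_lifts pc y x hyx.symm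
  obtain ⟨γ, ⟨hγx, hγ⟩, -⟩ := hcov.existsUnique_continuousMap_lifts pc x y hyx
  refine ⟨y, hy, γ, δ, contMDiff_of_lift hp γ.continuous hγ,
    contMDiff_of_lift hp δ.continuous hδ, ?_, hδy⟩
  obtain ⟨G, -, huniq⟩ := hcov.existsUnique_continuousMap_lifts pc y y rfl
  have h1 := huniq (γ.comp δ) ⟨by simp [hδy, hγx], by
    funext z
    show p (γ (δ z)) = p z
    rw [show p (γ (δ z)) = p (δ z) from congr_fun hγ (δ z)]
    exact congr_fun hδ z⟩
  have h2 := huniq (ContinuousMap.id V) ⟨rfl, rfl⟩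
  intro z
  exact congrArg (fun g : C(V, V) => g z) (h1.trans h2.symm)

end Vale.Agent.P300
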