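import Mathlib

/-!
Plurisubharmonic and holomorphic hulls on a complex manifold (P300).
-/

namespace Vale.Agent.P300

open Set Filter Metric
open scoped Manifold ContDiff Topology

variable (E : Type) [NormedAddCommGroup E] [NormedSpace ℂ E]
variable {V : Type} [TopologicalSpace V] [ChartedSpace E V]

/-- Continuous plurisubharmonic function: the submean value inequality on all small circles
of every holomorphic disc. -/
def IsPsh (u : V → ℝ) : Prop :=
  Continuous u ∧ ∀ (g : ℂ → V) (U : Set ℂ), IsOpen U →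
    ContMDiffOn 𝓘(ℂ, ℂ) 𝓘(ℂ, E) ω g U → ∀ z ∈ U,
      ∀ᶠ r in 𝓝[>] (0 : ℝ), u (g z) ≤ Real.circleAverage (u ∘ g) z r

/-- Holomorphic hull: `v` with `|g v| ≤ sup_K |g|` for every holomorphic function `g`. -/
def holHull (K : Set V) : Set V :=
  {v | ∀ g : V → ℂ, ContMDiff 𝓘(ℂ, E) 𝓘(ℂ, ℂ) ω g →
    ∀ M : ℝ, (∀ k ∈ K, ‖g k‖ ≤ M) → ‖g v‖ ≤ M}

/-- Plurisubharmonic hull: `v` with `u v ≤ sup_K u` for every continuous psh function `u`. -/
def pshHull (K : Set V) : Set V :=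
  {v | ∀ u : V → ℝ, IsPsh E u → ∀ M : ℝ, (∀ k ∈ K, u k ≤ M) → u v ≤ M}

end Vale.Agent.P300
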