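import Vale.Agent.P300.Sheets

/-!
Derivatives with respect to the coordinates given by a local biholomorphism `φ : V → E`,
and the uniform sheet radius on the holomorphic hull.
-/

namespace Vale.Agent.P300

open Set Filter Metric
open scoped Manifold ContDiff Topology

variable {E : Type} [NormedAddCommGroup E] [InnerProductSpace ℂ E]
variable {V : Type} [TopologicalSpace V] [ChartedSpace E V]
variable {φ : V → E} (hφ : IsLocalDiffeomorph 𝓘(ℂ, E) 𝓘(ℂ, E) ω φ)

/-- Derivative of `h` in the coordinates given by `φ`. -/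
noncomputable def dAlong (h : V → E) (x : V) : E →L[ℂ] E :=
  fderiv ℂ (h ∘ (hφ x).localInverse) (φ x)

theorem dAlong_eq (h : V → E) {x : V} {U : Set E} (hU : IsOpen U) {s : E → V}
    (hs : ContinuousOn s U) (hsec : ∀ w ∈ U, φ (s w) = w) (hx : φ x ∈ U) (hsx : s (φ x) = x) :
    dAlong hφ h x = fderiv ℂ (h ∘ s) (φ x) := by
  refine Filter.EventuallyEq.fderiv_eq ?_
  have h1 : Tendsto s (𝓝 (φ x)) (𝓝 x) := by
    have := (hs.continuousAt (hU.mem_nhds hx))
    rwa [ContinuousAt, hsx] at this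
  filter_upwards [h1.eventually (hφ x).localInverse_eventuallyEq_left, hU.mem_nhds hx]
    with w hw hwU
  simp only [Function.comp_apply, id, hsec w hwU] at hw
  simp [hw]

theorem contMDiff_dAlong {h : V → E} (hh : ContMDiff 𝓘(ℂ, E) 𝓘(ℂ, E) ω h) (u v : E) :
    ContMDiff 𝓘(ℂ, E) 𝓘(ℂ, ℂ) ω fun x => inner ℂ v (dAlong hφ h x u) := by
  intro x0
  let l := (hφ x0).localInverse
  have hd : ContDiffOn ℂ ω (fun w => inner ℂ v (fderiv ℂ (h ∘ l) w u)) l.source := by
    have h1 : ContDiffOn ℂ ω (h ∘ l) l.source :=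
      contMDiffOn_iff_contDiffOn.1 (hh.comp_contMDiffOn l.contMDiffOn_toFun)
    exact (innerSL ℂ v).contDiff.comp_contDiffOn
      ((h1.fderiv_of_isOpen l.open_source le_rfl).clm_apply contDiffOn_const)
  have hc := (contMDiffOn_iff_contDiffOn.2 hd).contMDiffAt
    (l.open_source.mem_nhds (hφ x0).localInverse_mem_source)
  refine (hc.comp x0 hφ.contMDiff.contMDiffAt).congr_of_eventuallyEq ?_
  filter_upwards [l.open_target.mem_nhds (hφ x0).localInverse_mem_target,
    hφ.contMDiff.continuous.continuousAt.eventually_mem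
      (l.open_source.mem_nhds (hφ x0).localInverse_mem_source)] with x hx hx'
  simp only [Function.comp_apply]
  rw [dAlong_eq hφ h l.open_source l.contMDiffOn_toFun.continuousOn
    (fun w hw => (hφ x0).localInverse_right_inv hw) hx' ((hφ x0).localInverse_left_inv hx)]

theorem exists_bound_dAlong {K : Set V} (hK : IsCompact K) (B : ℝ) :
    ∃ C : ℝ, 0 ≤ C ∧ ∀ x ∈ K, ∀ h : V → E, ContMDiff 𝓘(ℂ, E) 𝓘(ℂ, E) ω h →
      (∀ z, ‖h z‖ ≤ B) → ‖dAlong hφ h x‖ ≤ C := by
  refine hK.induction_on (p := fun S => ∃ C : ℝ, 0 ≤ C ∧ ∀ x ∈ S, ∀ h : V → E,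
    ContMDiff 𝓘(ℂ, E) 𝓘(ℂ, E) ω h → (∀ z, ‖h z‖ ≤ B) → ‖dAlong hφ h x‖ ≤ C) ?_ ?_ ?_ ?_
  · exact ⟨0, le_rfl, by simp⟩
  · rintro s t hst ⟨C, hC, hb⟩
    exact ⟨C, hC, fun x hx => hb x (hst hx)⟩
  · rintro s t ⟨C, hC, hb⟩ ⟨C', hC', hb'⟩
    exact ⟨max C C', hC.trans (le_max_left _ _), fun x hx h hh hB => hx.elim
      (fun hx => (hb x hx h hh hB).trans (le_max_left _ _))
      (fun hx => (hb' x hx h hh hB).trans (le_max_right _ _))⟩
  · intro x0 _
    let l := (hφ x0).localInverse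
    obtain ⟨e, he, hel⟩ := Metric.isOpen_iff.1 l.open_source _ (hφ x0).localInverse_mem_source
    refine ⟨l.target ∩ φ ⁻¹' ball (φ x0) (e / 2), mem_nhdsWithin_of_mem_nhds
      (inter_mem (l.open_target.mem_nhds (hφ x0).localInverse_mem_target)
      (hφ.contMDiff.continuous.continuousAt (ball_mem_nhds _ (by linarith)))), ?_⟩
    refine ⟨|2 * B / (e / 2)|, abs_nonneg _, fun x ⟨hx, hxe⟩ h hh hB => ?_⟩
    have hsub : ball (φ x) (e / 2) ⊆ l.source := by
      refine (ball_subset_ball' ?_).trans hel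
      have : dist (φ x) (φ x0) < e / 2 := hxe
      linarith
    rw [dAlong_eq hφ h l.open_source l.contMDiffOn_toFun.continuousOn
      (fun w hw => (hφ x0).localInverse_right_inv hw) (hsub (mem_ball_self (by linarith)))
      ((hφ x0).localInverse_left_inv hx)]
    refine (norm_fderiv_le_of_bounded (by linarith) ?_ fun z _ => hB _).trans (le_abs_self _)
    exact ((contMDiffOn_iff_contDiffOn.1 (hh.comp_contMDiffOn l.contMDiffOn_toFun)).differentiableOn
      (by simp)).mono hsub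

theorem norm_dAlong_le_of_mem_holHull {K : Set V} {C B : ℝ} (hC : 0 ≤ C)
    (hb : ∀ x ∈ K, ∀ h : V → E, ContMDiff 𝓘(ℂ, E) 𝓘(ℂ, E) ω h → (∀ z, ‖h z‖ ≤ B) →
      ‖dAlong hφ h x‖ ≤ C)
    {x : V} (hx : x ∈ holHull E K) {h : V → E} (hh : ContMDiff 𝓘(ℂ, E) 𝓘(ℂ, E) ω h)
    (hB : ∀ z, ‖h z‖ ≤ B) : ‖dAlong hφ h x‖ ≤ C := by
  refine ContinuousLinearMap.opNorm_le_bound _ hC fun u => ?_
  let v := dAlong hφ h x u
  have key : ‖inner ℂ v (dAlong hφ h x u)‖ ≤ ‖v‖ * (C * ‖u‖) := by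
    refine hx _ (contMDiff_dAlong hφ hh u v) _ fun k hk => (norm_inner_le_norm v _).trans ?_
    exact mul_le_mul_of_nonneg_left
      (((dAlong hφ h k).le_opNorm u).trans (by gcongr; exact hb k hk h hh hB)) (norm_nonneg v)
  rw [inner_self_eq_norm_sq_to_K, norm_pow] at key
  simp only [RCLike.norm_ofReal, abs_norm] at key
  rcases (norm_nonneg v).eq_or_lt with h0 | h0
  · change ‖v‖ ≤ _; rw [← h0]; positivity
  · exact le_of_mul_le_mul_left (by rw [← sq]; exact key) h0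

variable [FiniteDimensional ℂ E] [IsManifold 𝓘(ℂ, E) ω V]

/-- On the set where the `φ`-derivatives of all bounded translates are bounded by `C`, sheets
have a uniform radius. -/
theorem exists_uniform_sheet {F : Set V} (hF : IsCompact F)
    (hco : ∀ x, ∃ y ∈ F, ∃ γ δ : V → V, ContMDiff 𝓘(ℂ, E) 𝓘(ℂ, E) ω γ ∧
      ContMDiff 𝓘(ℂ, E) 𝓘(ℂ, E) ω δ ∧ (∀ z, γ (δ z) = z) ∧ δ y = x)
    {B : ℝ} (hB : ∀ z, ‖φ z‖ ≤ B) {C : ℝ} (hC : 0 ≤ C) :
    ∃ r > 0, ∀ x, (∀ h : V → E, ContMDiff 𝓘(ℂ, E) 𝓘(ℂ, E) ω h → (∀ z, ‖h z‖ ≤ B) →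
      ‖dAlong hφ h x‖ ≤ C) → ∃ s, Sheet φ x r s := by
  have : CompleteSpace E := FiniteDimensional.complete ℂ E
  have hp : ProperSpace E := FiniteDimensional.proper ℂ E
  let P : Set V → Prop := fun S => ∃ r > 0, ∀ y ∈ S, ∀ x, (∀ h : V → E,
    ContMDiff 𝓘(ℂ, E) 𝓘(ℂ, E) ω h → (∀ z, ‖h z‖ ≤ B) → ‖dAlong hφ h x‖ ≤ C) →
    ∀ γ δ : V → V, ContMDiff 𝓘(ℂ, E) 𝓘(ℂ, E) ω γ → ContMDiff 𝓘(ℂ, E) 𝓘(ℂ, E) ω δ →
      (∀ z, γ (δ z) = z) → δ y = x → ∃ s, Sheet φ x r s
  suffices P F by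
    obtain ⟨r, hr, hP⟩ := this
    refine ⟨r, hr, fun x hx => ?_⟩
    obtain ⟨y, hy, γ, δ, hγ, hδ, hγδ, hyx⟩ := hco x
    exact hP y hy x hx γ δ hγ hδ hγδ hyx
  refine hF.induction_on (p := P) ⟨1, one_pos, by simp⟩ ?_ ?_ ?_
  · rintro s t hst ⟨r, hr, hP⟩
    exact ⟨r, hr, fun y hy => hP y (hst hy)⟩
  · rintro S T ⟨r, hr, hP⟩ ⟨r', hr', hP'⟩
    refine ⟨min r r', lt_min hr hr', fun y hy x hx γ δ hγ hδ hγδ hyx => ?_⟩
    obtain hy | hy := hy
    · obtain ⟨s, h1, h2, h3⟩ := hP y hy x hx γ δ hγ hδ hγδ hyx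
      exact ⟨s, h1.mono (ball_subset_ball (min_le_left _ _)), h2,
        fun w hw => h3 w (ball_subset_ball (min_le_left _ _) hw)⟩
    · obtain ⟨s, h1, h2, h3⟩ := hP' y hy x hx γ δ hγ hδ hγδ hyx
      exact ⟨s, h1.mono (ball_subset_ball (min_le_right _ _)), h2,
        fun w hw => h3 w (ball_subset_ball (min_le_right _ _) hw)⟩
  intro y0 _
  let e := chartAt E y0
  obtain ⟨R, hR, hRe⟩ := Metric.nhds_basis_closedBall.mem_iff.1
    (e.open_target.mem_nhds (e.map_source (mem_chart_source E y0)))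
  have hes : ContMDiffOn 𝓘(ℂ, E) 𝓘(ℂ, E) ω e.symm e.target := contMDiffOn_chart_symm
  let A : E → E →L[ℂ] E := fderiv ℂ (φ ∘ e.symm)
  have hA : ContDiffOn ℂ ω (φ ∘ e.symm) e.target :=
    contMDiffOn_iff_contDiffOn.1 (hφ.contMDiff.comp_contMDiffOn hes)
  have hinj : ∀ z ∈ closedBall (e y0) R, Function.Injective (A z) := by
    intro z hz
    have hzt := hRe hz
    let l := (hφ (e.symm z)).localInverse
    have hlm : φ (e.symm z) ∈ l.source := (hφ (e.symm z)).localInverse_mem_source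
    have hlx : l (φ (e.symm z)) = e.symm z :=
      (hφ (e.symm z)).localInverse_left_inv (hφ (e.symm z)).localInverse_mem_target
    have hk : DifferentiableAt ℂ (fun w => e (l w)) (φ (e.symm z)) := by
      have h1 : ContMDiffAt 𝓘(ℂ, E) 𝓘(ℂ, E) ω e (e.symm z) :=
        contMDiffOn_chart.contMDiffAt (e.open_source.mem_nhds (e.map_target hzt))
      rw [← hlx] at h1
      exact (contMDiffAt_iff_contDiffAt.1 (h1.comp (φ (e.symm z))
        (hφ (e.symm z)).localInverse_contMDiffAt)).differentiableAt (by simp)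
    have hf : DifferentiableAt ℂ (φ ∘ e.symm) z :=
      ((hA.differentiableOn (by simp)) z hzt).differentiableAt (e.open_target.mem_nhds hzt)
    have heq : (fun w => e (l w)) ∘ (φ ∘ e.symm) =ᶠ[𝓝 z] id := by
      have ht : Tendsto e.symm (𝓝 z) (𝓝 (e.symm z)) := e.continuousAt_symm hzt
      filter_upwards [ht.eventually (hφ (e.symm z)).localInverse_eventuallyEq_left,
        e.open_target.mem_nhds hzt] with w hw hwt
      simp only [Function.comp_apply, id] at hw ⊢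
      rw [show l (φ (e.symm w)) = e.symm w from hw, e.right_inv hwt]
    have hcomp : (fderiv ℂ (fun w => e (l w)) (φ (e.symm z))).comp (A z) =
        ContinuousLinearMap.id ℂ E := by
      rw [← fderiv_id (x := z), ← heq.fderiv_eq]
      exact (fderiv_comp z hk hf).symm
    intro a b hab
    have := congrArg (fun T : E →L[ℂ] E => (T a, T b)) hcomp
    simp only [ContinuousLinearMap.comp_apply, ContinuousLinearMap.id_apply, Prod.mk.injEq] at this
    rw [← this.1, hab, this.2]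
  obtain ⟨m, hm, hlow⟩ : ∃ m > 0, ∀ z ∈ closedBall (e y0) R, ∀ v, m * ‖v‖ ≤ ‖A z v‖ := by
    have hAc : ContinuousOn A (closedBall (e y0) R) :=
      (hA.continuousOn_fderiv_of_isOpen e.open_target (by simp)).mono hRe
    have hcpt : IsCompact (closedBall (e y0) R ×ˢ sphere (0 : E) 1) :=
      (isCompact_closedBall _ _).prod (isCompact_sphere _ _)
    have hcont : ContinuousOn (fun p : E × E => ‖A p.1 p.2‖)
        (closedBall (e y0) R ×ˢ sphere (0 : E) 1) :=
      ((hAc.comp continuousOn_fst fun p hp => hp.1).clm_apply continuousOn_snd).norm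
    rcases (closedBall (e y0) R ×ˢ sphere (0 : E) 1).eq_empty_or_nonempty with h | h
    · refine ⟨1, one_pos, fun z hz v => ?_⟩
      rcases eq_or_ne v 0 with rfl | hv
      · simp
      · have : (z, ((‖v‖⁻¹ : ℝ) : ℂ) • v) ∈ closedBall (e y0) R ×ˢ sphere (0 : E) 1 :=
          ⟨hz, by simp [norm_smul, hv]⟩
        simp [h] at this
    obtain ⟨p, hp, hmin⟩ := hcpt.exists_isMinOn h hcont
    refine ⟨‖A p.1 p.2‖, norm_pos_iff.2 fun h0 => ?_, fun z hz v => ?_⟩
    · have := hinj p.1 hp.1 (h0.trans (map_zero (A p.1)).symm)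
      simp [this] at hp
    · rcases eq_or_ne v 0 with rfl | hv
      · simp
      · have hmem : (z, ((‖v‖⁻¹ : ℝ) : ℂ) • v) ∈ closedBall (e y0) R ×ˢ sphere (0 : E) 1 :=
          ⟨hz, by simp [norm_smul, hv]⟩
        have := hmin hmem
        simp only [mem_setOf_eq, map_smul, norm_smul, Complex.norm_real, norm_inv, norm_norm] at this
        have hv' : 0 < ‖v‖ := norm_pos_iff.2 hv
        rw [← div_eq_inv_mul, le_div_iff₀ hv'] at this
        exact this
  obtain ⟨r, hr, hIFT⟩ := exists_uniform_right_inverse (E := E) (half_pos hR) B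
    (N := (C + 1) / m) (by positivity)
  refine ⟨e.source ∩ e ⁻¹' ball (e y0) (R / 2), mem_nhdsWithin_of_mem_nhds
    ((e.continuousOn.isOpen_inter_preimage e.open_source isOpen_ball).mem_nhds
      ⟨mem_chart_source E y0, mem_ball_self (half_pos hR)⟩), r, hr, ?_⟩
  intro y ⟨hys, hye⟩ x hx γ δ hγ hδ hγδ hyx
  have hsubR : ball (e y) (R / 2) ⊆ closedBall (e y0) R := by
    refine (ball_subset_ball' ?_).trans ball_subset_closedBall
    have : dist (e y) (e y0) < R / 2 := hye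
    linarith
  let g : E → E := φ ∘ δ ∘ e.symm
  have hgd : DifferentiableOn ℂ g (ball (e y) (R / 2)) :=
    ((contMDiffOn_iff_contDiffOn.1 ((hφ.contMDiff.comp hδ).comp_contMDiffOn hes)).differentiableOn
      (by simp)).mono (hsubR.trans hRe)
  have hgy : g (e y) = φ x := by simp [g, e.left_inv hys, hyx]
  let l := (hφ x).localInverse
  have hm1 : e y ∈ ball (e y) (R / 2) := mem_ball_self (half_pos hR)
  have heq : (φ ∘ γ ∘ l) ∘ g =ᶠ[𝓝 (e y)] φ ∘ e.symm := by
    have ht : Tendsto (δ ∘ e.symm) (𝓝 (e y)) (𝓝 x) := by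
      have := hδ.continuous.continuousAt.comp (e.continuousAt_symm (e.map_source hys))
      rwa [ContinuousAt, Function.comp_apply, e.left_inv hys, hyx] at this
    filter_upwards [ht.eventually (hφ x).localInverse_eventuallyEq_left] with w hw
    simp only [Function.comp_apply, id] at hw
    simp only [Function.comp_apply, g]
    rw [show l (φ (δ (e.symm w))) = δ (e.symm w) from hw, hγδ]
  have hd1 : DifferentiableAt ℂ (φ ∘ γ ∘ l) (g (e y)) := by
    rw [hgy]
    exact (contMDiffAt_iff_contDiffAt.1 ((hφ.contMDiff.comp hγ).contMDiffAt.comp (φ x)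
      (hφ x).localInverse_contMDiffAt)).differentiableAt (by simp)
  have hd2 : DifferentiableAt ℂ g (e y) := hgd.differentiableAt (isOpen_ball.mem_nhds hm1)
  have hchain : (dAlong hφ (φ ∘ γ) x).comp (fderiv ℂ g (e y)) = A (e y) := by
    show _ = fderiv ℂ (φ ∘ e.symm) (e y)
    rw [← heq.fderiv_eq, fderiv_comp (e y) hd1 hd2, hgy]
    rfl
  have hbound : ∀ v, ‖v‖ ≤ (C + 1) / m * ‖fderiv ℂ g (e y) v‖ := fun v => by
    have h1 := hlow (e y) (hsubR hm1) v
    rw [← hchain, ContinuousLinearMap.comp_apply] at h1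
    have h2 : ‖dAlong hφ (φ ∘ γ) x (fderiv ℂ g (e y) v)‖ ≤ (C + 1) * ‖fderiv ℂ g (e y) v‖ :=
      (ContinuousLinearMap.le_opNorm _ _).trans
        (by gcongr; linarith [hx (φ ∘ γ) (hφ.contMDiff.comp hγ) fun z => hB _])
    rw [div_mul_eq_mul_div, le_div_iff₀ hm]
    linarith
  obtain ⟨inv, hic, hiy, hinv⟩ := hIFT g (e y) hgd (fun z _ => hB _) hbound
  rw [hgy] at hic hiy hinv
  refine ⟨fun w => δ (e.symm (inv w)), ?_, ?_, fun w hw => (hinv w hw).2⟩
  · exact hδ.continuous.comp_continuousOn (e.continuousOn_symm.comp hic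
      fun w hw => hRe (hsubR (hinv w hw).1))
  · show δ (e.symm (inv (φ x))) = x
    rw [hiy, e.left_inv hys, hyx]

end Vale.Agent.P300
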