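import Vale.Agent.P300.Deriv

/-!
Compactness of the hulls for a cocompact manifold with a bounded local biholomorphism to `E`.
-/

namespace Vale.Agent.P300

open Set Filter Metric
open scoped Manifold ContDiff Topology

variable {E : Type} [NormedAddCommGroup E] [InnerProductSpace ℂ E] [FiniteDimensional ℂ E]
variable {V : Type} [TopologicalSpace V] [T2Space V] [ChartedSpace E V]
  [IsManifold 𝓘(ℂ, E) ω V]
variable {φ : V → E}

theorem compact_of_not_neBot {H : Set V} (hH : IsClosed H)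
    (h : ¬ (cocompact V ⊓ 𝓟 H).NeBot) : IsCompact H := by
  rw [not_neBot, inf_principal_eq_bot, mem_cocompact] at h
  obtain ⟨L, hL, hsub⟩ := h
  exact hL.of_isClosed_subset hH (compl_subset_compl.1 hsub)

theorem exists_psh_pos {K : Set V} {Q : Set V} (hQ : IsCompact Q)
    (hd : ∀ q ∈ Q, q ∉ pshHull E K) :
    ∃ W : V → ℝ, IsPsh E W ∧ (∀ x, 0 ≤ W x) ∧ (∀ k ∈ K, W k ≤ 0) ∧ ∀ q ∈ Q, 0 < W q := by
  refine hQ.induction_on (p := fun S => ∃ W : V → ℝ, IsPsh E W ∧ (∀ x, 0 ≤ W x) ∧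
    (∀ k ∈ K, W k ≤ 0) ∧ ∀ q ∈ S, 0 < W q) ?_ ?_ ?_ ?_
  · exact ⟨fun _ => 0, isPsh_const 0, fun _ => le_rfl, fun _ _ => le_rfl, by simp⟩
  · rintro s t hst ⟨W, h1, h2, h3, h4⟩
    exact ⟨W, h1, h2, h3, fun q hq => h4 q (hst hq)⟩
  · rintro s t ⟨W, h1, h2, h3, h4⟩ ⟨W', h1', h2', h3', h4'⟩
    refine ⟨fun x => max (W x) (W' x), h1.max h1', fun x => (h2 x).trans (le_max_left _ _),
      fun k hk => max_le (h3 k hk) (h3' k hk), fun q hq => hq.elim
      (fun hq => (h4 q hq).trans_le (le_max_left _ _))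
      (fun hq => (h4' q hq).trans_le (le_max_right _ _))⟩
  · intro q hq
    have hq' := hd q hq
    simp only [pshHull, mem_setOf_eq, not_forall, not_le] at hq'
    obtain ⟨u, hu, M, hM, hMq⟩ := hq'
    refine ⟨{x | M < u x}, mem_nhdsWithin_of_mem_nhds
      ((isOpen_lt continuous_const hu.1).mem_nhds hMq), fun x => max (1 * u x + -M) 0,
      (hu.affine zero_le_one (-M)).max (isPsh_const 0), fun x => le_max_right _ _,
      fun k hk => max_le (by linarith [hM k hk]) le_rfl, fun x hx => ?_⟩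
    simp only [mem_setOf_eq] at hx
    exact lt_max_of_lt_left (by linarith)

theorem isCompact_pshHull (hφ : IsLocalDiffeomorph 𝓘(ℂ, E) 𝓘(ℂ, E) ω φ) {F : Set V}
    (hF : IsCompact F)
    (hco : ∀ x, ∃ y ∈ F, ∃ γ δ : V → V, ContMDiff 𝓘(ℂ, E) 𝓘(ℂ, E) ω γ ∧
      ContMDiff 𝓘(ℂ, E) 𝓘(ℂ, E) ω δ ∧ (∀ z, γ (δ z) = z) ∧ δ y = x)
    {B : ℝ} (hB : ∀ z, ‖φ z‖ ≤ B) {K : Set V} (hK : IsCompact K) :
    IsCompact (pshHull E K) := by
  classical
  have : CompleteSpace E := FiniteDimensional.complete ℂ E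
  have : ProperSpace E := FiniteDimensional.proper ℂ E
  by_contra hne
  have hlh : IsLocalHomeomorph φ := hφ.isLocalHomeomorph
  have hφc : ContMDiff 𝓘(ℂ, E) 𝓘(ℂ, E) ω φ := hφ.contMDiff
  set H := pshHull E K
  have hNB : (cocompact V ⊓ 𝓟 H).NeBot := by
    by_contra h; exact hne (compact_of_not_neBot (isClosed_pshHull K) h)
  obtain ⟨C, hC, hb⟩ := exists_bound_dAlong hφ hK B
  obtain ⟨r0, hr0, hsheet⟩ := exists_uniform_sheet hφ hF hco hB hC
  set r := r0 / 3
  have hr : 0 < r := by positivity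
  set 𝓕 := cocompact V ⊓ 𝓟 H
  let f : V → ℝ := fun z => ‖φ z‖ ^ 2
  let S := {a : ℝ | MapClusterPt a 𝓕 f}
  have hf : ∀ z, f z ∈ Icc 0 (B ^ 2) := fun z =>
    ⟨sq_nonneg _, pow_le_pow_left₀ (norm_nonneg _) (hB z) 2⟩
  have hSne : S.Nonempty := by
    obtain ⟨a, _, ha⟩ := (isCompact_Icc (a := (0 : ℝ)) (b := B ^ 2)).exists_mapClusterPt
      (f := 𝓕) (u := f) (le_principal_iff.2 (mem_map.2 (Eventually.of_forall hf)))
    exact ⟨a, ha⟩
  have hSc : IsCompact S := by
    refine (isCompact_Icc (a := (0 : ℝ)) (b := B ^ 2)).of_isClosed_subset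
      isClosed_setOfPred_clusterPt ?_
    intro a ha
    exact isClosed_Icc.mem_of_mapClusterPt ha (Eventually.of_forall hf)
  obtain ⟨M, hMS, hmax⟩ := hSc.exists_isGreatest hSne
  set δ := r ^ 2 / 16
  have hδ : 0 < δ := by positivity
  have hev : ∀ᶠ x in 𝓕, f x < M + δ := by
    by_contra hfr
    rw [not_eventually] at hfr
    have : (𝓕 ⊓ 𝓟 {x | ¬ f x < M + δ}).NeBot := frequently_mem_iff_neBot.1 hfr
    obtain ⟨a, ha, hca⟩ := (isCompact_Icc (a := M + δ) (b := max (M + δ) (B ^ 2))).exists_mapClusterPt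
      (f := 𝓕 ⊓ 𝓟 {x | ¬ f x < M + δ}) (u := f)
      (le_principal_iff.2 (mem_inf_of_right (mem_principal.2 fun x hx =>
        ⟨le_of_not_gt hx, (hf x).2.trans (le_max_right _ _)⟩)))
    have := hmax (hca.mono inf_le_left : a ∈ S)
    linarith [ha.1]
  rw [eventually_inf_principal, eventually_iff, mem_cocompact] at hev
  obtain ⟨L, hL, hLf⟩ := hev
  obtain ⟨L', hL', hends⟩ := exists_compact_sheet_ends hlh (hL.union hK) hr
  have hfreq : ∃ᶠ x in 𝓕, |f x - M| < δ :=
    hMS.frequently (p := fun a => |a - M| < δ)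
      (by filter_upwards [ball_mem_nhds M hδ] with a ha; simpa [mem_ball, Real.dist_eq] using ha)
  obtain ⟨x, hxM, hxH, hxL⟩ := (hfreq.and_eventually
    ((eventually_inf_principal.2 (Eventually.of_forall fun x hx => hx) :
      ∀ᶠ x in 𝓕, x ∈ H).and (mem_inf_of_left hL'.compl_mem_cocompact))).exists
  obtain ⟨s, hs⟩ := hsheet x fun h hh hhB =>
    norm_dAlong_le_of_mem_holHull hφ hC hb (pshHull_subset_holHull K hxH) hh hhB
  rw [show r0 = 3 * r by simp only [r]; ring] at hs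
  have hfar : ∀ w ∈ closedBall (φ x) r, s w ∉ L ∪ K := fun w hw hwL =>
    hxL (hends x s hs w hw hwL)
  obtain ⟨hsc, hsx, hsec⟩ := hs
  have hcb : closedBall (φ x) r ⊆ ball (φ x) (3 * r) := closedBall_subset_ball (by linarith)
  let S1 := s '' closedBall (φ x) r
  have hS1 : IsCompact S1 := (isCompact_closedBall _ _).image_of_continuousOn (hsc.mono hcb)
  let T := s '' sphere (φ x) r
  have hT : IsCompact T :=
    (isCompact_sphere _ _).image_of_continuousOn (hsc.mono (sphere_subset_closedBall.trans hcb))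
  let c : E := φ x
  let a : ℝ := M + 2 * δ - r ^ 2 / 2
  let u : V → ℝ := fun z =>
    (1 / 2) * ‖φ z‖ ^ 2 + (inner ℂ c (φ z)).re + (-(‖c‖ ^ 2 / 2) - a)
  have hu : IsPsh E u := isPsh_quad hφc (by norm_num) c _
  have hueq : ∀ z, u z = f z - ‖φ z - c‖ ^ 2 / 2 - a := fun z => by
    have h0 := norm_sub_sq (𝕜 := ℂ) c (φ z)
    simp only [RCLike.re_to_complex] at h0
    rw [norm_sub_rev c (φ z)] at h0
    simp only [u, f]
    linarith
  have hux : 0 < u x := by
    rw [hueq]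
    have := (abs_lt.1 hxM).1
    simp only [c, sub_self, norm_zero, a, δ] at this ⊢
    nlinarith
  let Q := T ∩ {z | 0 ≤ u z}
  have hQ : IsCompact Q := hT.inter_right (isClosed_le continuous_const hu.1)
  have hQH : ∀ q ∈ Q, q ∉ H := by
    rintro _ ⟨⟨w, hw, rfl⟩, hq⟩ hqH
    have hwc := sphere_subset_closedBall hw
    have hqL : s w ∈ Lᶜ := fun h => hfar w hwc (Or.inl h)
    have h1 : f (s w) < M + δ := hLf hqL hqH
    have h2 : u (s w) = f (s w) - r ^ 2 / 2 - a := by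
      rw [hueq, hsec w (hcb hwc), ← dist_eq_norm_sub, mem_sphere.1 hw]
    simp only [mem_setOf_eq, h2, a] at hq
    linarith
  obtain ⟨W, hW, hW0, hWK, hWQ⟩ := exists_psh_pos (K := K) hQ hQH
  obtain ⟨N, hN⟩ := hQ.bddAbove_image
    (hu.1.continuousOn.div hW.1.continuousOn fun q hq => (hWQ q hq).ne')
  set N' := max N 0 + 1
  have hNT : ∀ q ∈ T, u q < N' * W q + 0 ∨ u q < 0 := by
    intro q hq
    by_cases hq0 : 0 ≤ u q
    · left
      have h1 := hN (mem_image_of_mem _ ⟨hq, hq0⟩)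
      simp only [Pi.div_apply] at h1
      rw [div_le_iff₀ (hWQ q ⟨hq, hq0⟩)] at h1
      have h2 := hWQ q ⟨hq, hq0⟩
      nlinarith [le_max_left N 0]
    · right; linarith
  let W' : V → ℝ := fun z => N' * W z + 0
  have hN'0 : 0 ≤ N' := by positivity
  have hW' : IsPsh E W' := hW.affine hN'0 0
  let U : V → ℝ := fun z => if z ∈ S1 then max (u z) (W' z) else W' z
  have hO : IsOpen (s '' ball (φ x) r) :=
    isOpen_image_section hlh isOpen_ball (hsc.mono (ball_subset_closedBall.trans hcb))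
      fun w hw => hsec w (hcb (ball_subset_closedBall hw))
  have hU : IsPsh E U := by
    refine isPsh_of_local fun z => ?_
    by_cases hzO : z ∈ s '' ball (φ x) r
    · exact ⟨_, hu.max hW', eventually_of_mem (hO.mem_nhds hzO) fun z' hz' =>
        if_pos (image_mono ball_subset_closedBall hz')⟩
    by_cases hzS : z ∈ S1
    · refine ⟨W', hW', ?_⟩
      obtain ⟨w, hw, rfl⟩ := hzS
      have hws : w ∈ sphere (φ x) r := by
        refine mem_sphere.2 (le_antisymm hw (not_lt.1 fun h => hzO ⟨w, h, rfl⟩))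
      have hlt : u (s w) < W' (s w) := (hNT _ ⟨w, hws, rfl⟩).elim id fun h =>
        h.trans_le (by simp only [W', add_zero]; exact mul_nonneg hN'0 (hW0 _))
      filter_upwards [(isOpen_lt hu.1 hW'.1).mem_nhds hlt] with z' hz'
      by_cases h : z' ∈ S1
      · exact (if_pos h).trans (max_eq_right (le_of_lt hz'))
      · exact if_neg h
    · exact ⟨W', hW', eventually_of_mem (hS1.isClosed.isOpen_compl.mem_nhds hzS)
        fun z' hz' => if_neg hz'⟩
  have hUK : ∀ k ∈ K, U k ≤ 0 := fun k hk => by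
    have : k ∉ S1 := by rintro ⟨w, hw, rfl⟩; exact hfar w hw (Or.inr hk)
    simp only [U, if_neg this, W', add_zero]
    exact mul_nonpos_of_nonneg_of_nonpos hN'0 (hWK k hk)
  have hfin := hxH U hU 0 hUK
  have hxS : x ∈ S1 := ⟨φ x, mem_closedBall_self hr.le, hsx⟩
  simp only [U, if_pos hxS] at hfin
  linarith [le_max_left (u x) (W' x)]

theorem isCompact_holHull (hφ : IsLocalDiffeomorph 𝓘(ℂ, E) 𝓘(ℂ, E) ω φ) {F : Set V}
    (hF : IsCompact F)
    (hco : ∀ x, ∃ y ∈ F, ∃ γ δ : V → V, ContMDiff 𝓘(ℂ, E) 𝓘(ℂ, E) ω γ ∧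
      ContMDiff 𝓘(ℂ, E) 𝓘(ℂ, E) ω δ ∧ (∀ z, γ (δ z) = z) ∧ δ y = x)
    {B : ℝ} (hB : ∀ z, ‖φ z‖ ≤ B) (hD : Dense {w : E | (φ ⁻¹' {w}).Finite})
    {K : Set V} (hK : IsCompact K) : IsCompact (holHull E K) := by
  have : CompleteSpace E := FiniteDimensional.complete ℂ E
  have : ProperSpace E := FiniteDimensional.proper ℂ E
  by_contra hne
  have hNB : (cocompact V ⊓ 𝓟 (holHull E K)).NeBot := by
    by_contra h; exact hne (compact_of_not_neBot (isClosed_holHull K) h)
  obtain ⟨C, hC, hb⟩ := exists_bound_dAlong hφ hK B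
  obtain ⟨r0, hr0, hsheet⟩ := exists_uniform_sheet hφ hF hco hB hC
  set r := r0 / 3
  have hr : 0 < r := by positivity
  obtain ⟨c, -, hc⟩ := (isCompact_closedBall (0 : E) B).exists_mapClusterPt
    (f := cocompact V ⊓ 𝓟 (holHull E K)) (u := φ)
    (le_principal_iff.2 (mem_map.2 (Eventually.of_forall fun z => mem_closedBall_zero_iff.2 (hB z))))
  obtain ⟨p, hpc, hpfin⟩ :=
    hD.inter_open_nonempty (ball c (r / 2)) isOpen_ball ⟨c, mem_ball_self (by positivity)⟩
  obtain ⟨L', hL', hends⟩ :=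
    exists_compact_sheet_ends hφ.isLocalHomeomorph (Set.Finite.isCompact hpfin) hr
  obtain ⟨x, hxc, hxH, hxL⟩ := ((hc.frequently (p := fun a => a ∈ ball c (r / 2))
      (ball_mem_nhds c (by positivity))).and_eventually
    ((eventually_inf_principal.2 (Eventually.of_forall fun x hx => hx) :
      ∀ᶠ x in cocompact V ⊓ 𝓟 (holHull E K), x ∈ holHull E K).and
      (mem_inf_of_left hL'.compl_mem_cocompact))).exists
  obtain ⟨s, hs⟩ := hsheet x fun h hh hhB =>
    norm_dAlong_le_of_mem_holHull hφ hC hb hxH hh hhB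
  rw [show r0 = 3 * r by simp only [r]; ring] at hs
  have hpx : p ∈ closedBall (φ x) r := by
    rw [mem_closedBall]
    have h1 : dist p c < r / 2 := hpc
    have h2 : dist (φ x) c < r / 2 := hxc
    linarith [dist_triangle_right p (φ x) c]
  exact hxL (hends x s hs p hpx (hs.2.2 p (closedBall_subset_ball (by linarith) hpx)))

end Vale.Agent.P300
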