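import Vale.Agent.P300.Defs

/-!
Elementary facts on continuous psh functions and on the two hulls.
-/

namespace Vale.Agent.P300

open Set Filter Metric
open scoped Manifold ContDiff Topology

variable {E : Type} [NormedAddCommGroup E] [NormedSpace ℂ E]
variable {V : Type} [TopologicalSpace V] [ChartedSpace E V]

theorem circle_eventually_mem {U : Set ℂ} {z : ℂ} (hU : U ∈ 𝓝 z) :
    ∀ᶠ r in 𝓝[>] (0 : ℝ), closedBall z |r| ⊆ U := by
  obtain ⟨e, he, heU⟩ := Metric.nhds_basis_closedBall.mem_iff.1 hU
  filter_upwards [Ioo_mem_nhdsGT he] with r hr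
  exact (closedBall_subset_closedBall (by rw [abs_of_pos hr.1]; exact hr.2.le)).trans heU

theorem isPsh_of_local {u : V → ℝ}
    (h : ∀ x, ∃ v, IsPsh E v ∧ u =ᶠ[𝓝 x] v) : IsPsh E u := by
  refine ⟨continuous_iff_continuousAt.2 fun x => ?_, ?_⟩
  · obtain ⟨v, hv, he⟩ := h x
    exact (hv.1.continuousAt).congr he.symm
  · intro g U hU hg z hz
    obtain ⟨v, hv, he⟩ := h (g z)
    have hc : ContinuousAt g z := (hg.continuousOn.continuousAt (hU.mem_nhds hz))
    have : {w | u (g w) = v (g w)} ∈ 𝓝 z := hc.eventually he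
    filter_upwards [circle_eventually_mem this, hv.2 g U hU hg z hz] with r hr hle
    have h0 : u (g z) = v (g z) := he.eq_of_nhds
    rw [h0, Real.circleAverage_congr_sphere (f₂ := v ∘ g)]
    · exact hle
    · exact fun w hw => hr (sphere_subset_closedBall hw)

theorem circleIntegrable_comp {u : V → ℝ} (hu : Continuous u) {g : ℂ → V} {U : Set ℂ}
    (hg : ContinuousOn g U) {z : ℂ} {r : ℝ} (hr : closedBall z |r| ⊆ U) :
    CircleIntegrable (u ∘ g) z r :=
  ((hu.comp_continuousOn hg).mono (sphere_subset_closedBall.trans hr)).circleIntegrable'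

theorem IsPsh.max {u v : V → ℝ} (hu : IsPsh E u) (hv : IsPsh E v) :
    IsPsh E fun x => max (u x) (v x) := by
  refine ⟨hu.1.max hv.1, fun g U hU hg z hz => ?_⟩
  filter_upwards [circle_eventually_mem (hU.mem_nhds hz), hu.2 g U hU hg z hz,
    hv.2 g U hU hg z hz] with r hr h1 h2
  have hm := circleIntegrable_comp (hu.1.max hv.1) hg.continuousOn hr
  refine max_le (h1.trans ?_) (h2.trans ?_)
  · exact Real.circleAverage_mono (circleIntegrable_comp hu.1 hg.continuousOn hr) hm
      fun w _ => le_max_left _ _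
  · exact Real.circleAverage_mono (circleIntegrable_comp hv.1 hg.continuousOn hr) hm
      fun w _ => le_max_right _ _

theorem IsPsh.affine {u : V → ℝ} (hu : IsPsh E u) {a : ℝ} (ha : 0 ≤ a) (b : ℝ) :
    IsPsh E fun x => a * u x + b := by
  refine ⟨(continuous_const.mul hu.1).add continuous_const, fun g U hU hg z hz => ?_⟩
  filter_upwards [circle_eventually_mem (hU.mem_nhds hz), hu.2 g U hU hg z hz] with r hr h1
  have hi := circleIntegrable_comp hu.1 hg.continuousOn hr
  have e : ((fun x => a * u x + b) ∘ g) = (a • (u ∘ g)) + fun _ => b := by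
    funext w; simp
  rw [e, Real.circleAverage_add (hi.const_smul (a := a)) (circleIntegrable_const b z r),
    Real.circleAverage_smul, Real.circleAverage_const, smul_eq_mul]
  have := mul_le_mul_of_nonneg_left h1 ha
  linarith

theorem isPsh_quad {F : Type} [NormedAddCommGroup F] [InnerProductSpace ℂ F] [CompleteSpace F]
    {G : V → F} (hG : ContMDiff 𝓘(ℂ, E) 𝓘(ℂ, F) ω G) {a : ℝ} (ha : 0 ≤ a) (c : F) (b : ℝ) :
    IsPsh E fun x => a * ‖G x‖ ^ 2 + (inner ℂ c (G x)).re + b := by
  have hGc : Continuous G := hG.continuous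
  refine ⟨by fun_prop, fun g U hU hg z hz => ?_⟩
  filter_upwards [circle_eventually_mem (hU.mem_nhds hz)] with r hr
  let L : F →L[ℂ] ℂ := innerSL ℂ (((2 * a : ℝ) : ℂ) • G (g z) + c)
  let H : ℂ → ℂ := fun w => L (G (g w)) + ((b - a * ‖G (g z)‖ ^ 2 : ℝ) : ℂ)
  have hd : DifferentiableOn ℂ H U := by
    have h1 : DifferentiableOn ℂ (G ∘ g) U :=
      (contMDiffOn_iff_contDiffOn.1 (hG.comp_contMDiffOn hg)).differentiableOn (by simp)
    exact (L.differentiable.comp_differentiableOn h1).add_const _
  have hmean : Real.circleAverage H z r = H z :=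
    DiffContOnCl.circleAverage
      ((hd.mono ((closure_ball_subset_closedBall).trans hr)).diffContOnCl)
  have hHi : CircleIntegrable H z r :=
    (hd.continuousOn.mono (sphere_subset_closedBall.trans hr)).circleIntegrable'
  have hre : Real.circleAverage (fun w => (H w).re) z r = (H z).re := by
    rw [← hmean, Real.circleAverage_def, Real.circleAverage_def]
    have := Complex.reCLM.intervalIntegral_comp_comm (show IntervalIntegrable (fun t => H (circleMap z r t)) MeasureTheory.volume 0 (2 * Real.pi) from hHi)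
    simp only [Complex.reCLM_apply] at this
    rw [this]
    simp
  have key : ∀ w, (H w).re ≤ a * ‖G (g w)‖ ^ 2 + (inner ℂ c (G (g w))).re + b := by
    intro w
    have h0 := norm_sub_sq (𝕜 := ℂ) (G (g z)) (G (g w))
    simp only [RCLike.re_to_complex] at h0
    have h1 := mul_nonneg ha (sq_nonneg ‖G (g z) - G (g w)‖)
    simp only [H, L, innerSL_apply_apply, inner_add_left, inner_smul_left, Complex.add_re,
      Complex.conj_ofReal, Complex.re_ofReal_mul, Complex.ofReal_re]
    nlinarith
  have h00 : a * ‖G (g z)‖ ^ 2 + (inner ℂ c (G (g z))).re + b = (H z).re := by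
    have := norm_sub_sq (𝕜 := ℂ) (G (g z)) (G (g z))
    simp only [RCLike.re_to_complex, sub_self, norm_zero] at this
    simp only [H, L, innerSL_apply_apply, inner_add_left, inner_smul_left, Complex.add_re,
      Complex.conj_ofReal, Complex.re_ofReal_mul, Complex.ofReal_re]
    nlinarith
  rw [h00, ← hre]
  exact Real.circleAverage_mono
    ((Complex.continuous_re.comp_continuousOn
      (hd.continuousOn.mono (sphere_subset_closedBall.trans hr))).circleIntegrable')
    (circleIntegrable_comp (u := fun x => a * ‖G x‖ ^ 2 + (inner ℂ c (G x)).re + b)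
      (by fun_prop) hg.continuousOn hr) fun w _ => key w

theorem isClosed_holHull (K : Set V) : IsClosed (holHull E K) := by
  have : holHull E K = ⋂ (g : V → ℂ) (_ : ContMDiff 𝓘(ℂ, E) 𝓘(ℂ, ℂ) ω g) (M : ℝ)
      (_ : ∀ k ∈ K, ‖g k‖ ≤ M), {v | ‖g v‖ ≤ M} := by
    ext; simp [holHull]
  rw [this]
  exact isClosed_iInter fun g => isClosed_iInter fun hg => isClosed_iInter fun M =>
    isClosed_iInter fun _ => isClosed_le hg.continuous.norm continuous_const

theorem isClosed_pshHull (K : Set V) : IsClosed (pshHull E K) := by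
  have : pshHull E K = ⋂ (u : V → ℝ) (_ : IsPsh E u) (M : ℝ)
      (_ : ∀ k ∈ K, u k ≤ M), {v | u v ≤ M} := by
    ext; simp [pshHull]
  rw [this]
  exact isClosed_iInter fun u => isClosed_iInter fun hu => isClosed_iInter fun M =>
    isClosed_iInter fun _ => isClosed_le hu.1 continuous_const

theorem isPsh_const (b : ℝ) : IsPsh E (fun _ : V => b) := by
  refine ⟨continuous_const, fun g U hU hg z hz => Eventually.of_forall fun r => ?_⟩
  rw [show ((fun _ : V => b) ∘ g) = fun _ => b from rfl, Real.circleAverage_const]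

theorem pshHull_subset_holHull (K : Set V) : pshHull E K ⊆ holHull E K := by
  intro v hv g hg M hM
  rcases K.eq_empty_or_nonempty with rfl | ⟨k, hk⟩
  · have := hv _ (isPsh_const 0) (-1) (by simp)
    linarith
  have hM0 : 0 ≤ M := (norm_nonneg _).trans (hM k hk)
  have := hv _ (isPsh_quad hg zero_le_one 0 0) (M ^ 2) fun k hk => by
    have := hM k hk
    simp only [inner_zero_left, Complex.zero_re, one_mul, add_zero]
    gcongr
  simp only [inner_zero_left, Complex.zero_re, one_mul, add_zero] at this
  exact le_of_pow_le_pow_left₀ two_ne_zero hM0 this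

end Vale.Agent.P300
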