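import Mathlib

/-!
A uniform inverse function theorem for bounded holomorphic maps: if the derivative at the centre
has inverse bounded by `N`, the image contains a ball of radius depending only on the bounds,
on which a continuous right inverse exists.
-/

namespace Vale.Agent.P300

open Set Filter Metric
open scoped Topology NNReal

variable {E F : Type} [NormedAddCommGroup E] [NormedSpace ℂ E] [NormedAddCommGroup F]
  [NormedSpace ℂ F]

theorem norm_fderiv_le_of_bounded {f : E → F} {c : E} {R B : ℝ} (hR : 0 < R)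
    (hd : DifferentiableOn ℂ f (ball c R)) (hB : ∀ z ∈ ball c R, ‖f z‖ ≤ B) :
    ‖fderiv ℂ f c‖ ≤ 2 * B / R := by
  refine Complex.norm_fderiv_le_div_of_mapsTo_ball hd (fun z hz => ?_) hR
  rw [mem_closedBall, dist_eq_norm_sub]
  have h1 := norm_sub_le (f z) (f c)
  have h2 := hB z hz
  have h3 := hB c (mem_ball_self hR)
  linarith

theorem norm_sub_le_of_bounded {f : E → F} {c a b : E} {R B : ℝ}
    (hd : DifferentiableOn ℂ f (ball c R)) (hB : ∀ z ∈ ball c R, ‖f z‖ ≤ B)
    (ha : dist a c < R / 4) (hb : dist b c < R / 4) :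
    ‖f a - f b‖ ≤ 4 * B / R * ‖a - b‖ := by
  have hsub : ball b (R / 2) ⊆ ball c R := ball_subset_ball' (by linarith [@dist_nonneg _ _ b c])
  have hab : a ∈ ball b (R / 2) := by
    have := dist_triangle_right a b c
    rw [mem_ball]; linarith
  have hm : MapsTo f (ball b (R / 2)) (closedBall (f b) (2 * B)) := fun z hz => by
    rw [mem_closedBall, dist_eq_norm_sub]
    have h1 := norm_sub_le (f z) (f b)
    have h2 := hB z (hsub hz)
    have h3 := hB b (hsub (mem_ball_self (pos_of_mem_ball hab)))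
    linarith
  have := Complex.dist_le_div_mul_dist_of_mapsTo_ball (hd.mono hsub) hm hab
  rw [dist_eq_norm_sub, dist_eq_norm_sub] at this
  refine this.trans_eq ?_
  field_simp
  ring

theorem norm_fderiv_sub_le_of_bounded {f : E → F} {c a b : E} {R B : ℝ}
    (hd : DifferentiableOn ℂ f (ball c R)) (hB : ∀ z ∈ ball c R, ‖f z‖ ≤ B)
    (ha : dist a c < R / 32) (hb : dist b c < R / 32) :
    ‖fderiv ℂ f a - fderiv ℂ f b‖ ≤ 64 * B / R ^ 2 * ‖a - b‖ := by
  have hR : 0 < R := by linarith [@dist_nonneg _ _ a c]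
  have hB0 : 0 ≤ B := (norm_nonneg _).trans (hB c (mem_ball_self hR))
  let h : E → F := fun z => f (z + (a - b)) - f z
  have hd1 : ∀ z ∈ ball b (R / 8), dist z c < R / 4 := fun z hz => by
    have := dist_triangle z b c
    rw [mem_ball] at hz; linarith
  have hd2 : ∀ z ∈ ball b (R / 8), dist (z + (a - b)) c < R / 4 := fun z hz => by
    have h1 := dist_triangle (z + (a - b)) a c
    have h2 : dist (z + (a - b)) a = dist z b := by
      rw [dist_eq_norm_sub, dist_eq_norm_sub]; congr 1; abel
    rw [mem_ball] at hz; linarith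
  have hat : ∀ z, dist z c < R / 4 → DifferentiableAt ℂ f z := fun z hz =>
    hd.differentiableAt (isOpen_ball.mem_nhds (by rw [mem_ball]; linarith [@dist_nonneg _ _ z c]))
  have hdh : DifferentiableOn ℂ h (ball b (R / 8)) := fun z hz =>
    ((differentiableAt_comp_add_right (a := a - b)).2 (hat _ (hd2 z hz))).sub (hat _ (hd1 z hz))
      |>.differentiableWithinAt
  have hBh : ∀ z ∈ ball b (R / 8), ‖h z‖ ≤ 4 * B / R * ‖a - b‖ := fun z hz => by
    have := norm_sub_le_of_bounded hd hB (hd2 z hz) (hd1 z hz)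
    simpa [h] using this
  have := norm_fderiv_le_of_bounded (by linarith) hdh hBh
  have hb8 : b ∈ ball b (R / 8) := mem_ball_self (by linarith)
  have e : fderiv ℂ h b = fderiv ℂ f a - fderiv ℂ f b := by
    have hfa : DifferentiableAt ℂ f (b + (a - b)) := hat _ (hd2 b hb8)
    show fderiv ℂ (fun z => f (z + (a - b)) - f z) b = _
    rw [fderiv_fun_sub ((differentiableAt_comp_add_right (a := a - b)).2 hfa) (hat _ (hd1 b hb8)), fderiv_comp_add_right,
      add_sub_cancel]
  rw [e] at this
  refine this.trans_eq ?_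
  field_simp
  ring

variable [FiniteDimensional ℂ E]

/-- Uniform right inverse: the radius depends only on `R`, `B`, `N`. -/
theorem exists_uniform_right_inverse {R : ℝ} (hR : 0 < R) (B : ℝ) {N : ℝ} (hN : 0 < N) :
    ∃ r > 0, ∀ (g : E → E) (c : E), DifferentiableOn ℂ g (ball c R) →
      (∀ z ∈ ball c R, ‖g z‖ ≤ B) → (∀ v, ‖v‖ ≤ N * ‖fderiv ℂ g c v‖) →
      ∃ inv : E → E, ContinuousOn inv (ball (g c) r) ∧ inv (g c) = c ∧
        ∀ w ∈ ball (g c) r, inv w ∈ ball c R ∧ g (inv w) = w := by
  have : CompleteSpace E := FiniteDimensional.complete ℂ E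
  let ρ : ℝ := min (R / 32) (R ^ 2 / (256 * (|B| + 1) * N))
  have hρ : 0 < ρ := lt_min (by positivity) (by positivity)
  refine ⟨3 * ρ / (8 * N), by positivity, fun g c hd hB hL => ?_⟩
  have hρR : ρ ≤ R / 32 := min_le_left _ _
  have hsub : ball c ρ ⊆ ball c R := ball_subset_ball (by linarith)
  let L := fderiv ℂ g c
  have hinj : Function.Injective (L : E →ₗ[ℂ] E) := by
    intro x y hxy
    have h0 := hL (x - y)
    have : L (x - y) = 0 := by rw [map_sub, sub_eq_zero]; exact hxy
    rw [show fderiv ℂ g c (x - y) = 0 from this, norm_zero, mul_zero] at h0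
    exact sub_eq_zero.1 (norm_le_zero_iff.1 h0)
  let L' : E ≃L[ℂ] E := (LinearEquiv.ofInjectiveEndo (L : E →ₗ[ℂ] E) hinj).toContinuousLinearEquiv
  have hL' : ∀ v, L' v = L v := fun v => rfl
  have hsym : ‖(L'.symm : E →L[ℂ] E)‖ ≤ N := by
    refine ContinuousLinearMap.opNorm_le_bound _ hN.le fun w => ?_
    have := hL (L'.symm w)
    rwa [show fderiv ℂ g c (L'.symm w) = w by rw [← show L' (L'.symm w) = L (L'.symm w) from hL' _,
      L'.apply_symm_apply]] at this
  rcases subsingleton_or_nontrivial E with hE | hE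
  · exact ⟨fun _ => c, continuousOn_const, rfl, fun w _ =>
      ⟨mem_ball_self hR, Subsingleton.elim _ _⟩⟩
  let k : ℝ≥0 := Real.toNNReal (1 / (4 * N))
  have hk : (k : ℝ) = 1 / (4 * N) := Real.coe_toNNReal _ (by positivity)
  have happ : ApproximatesLinearOn g (L' : E →L[ℂ] E) (ball c ρ) k := by
    intro x hx y hy
    rw [hk]
    refine (convex_ball c ρ).norm_image_sub_le_of_norm_fderiv_le' (fun z hz => ?_) (fun z hz => ?_)
      hy hx
    · exact hd.differentiableAt (isOpen_ball.mem_nhds (hsub hz))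
    · rw [show (L' : E →L[ℂ] E) = L from ContinuousLinearMap.ext hL']
      have hz' : dist z c < ρ := hz
      refine (norm_fderiv_sub_le_of_bounded hd hB (hz'.trans_le hρR)
        (by rw [dist_self]; linarith)).trans ?_
      rw [← dist_eq_norm_sub]
      calc 64 * B / R ^ 2 * dist z c ≤ 64 * (|B| + 1) / R ^ 2 * ρ := by
            refine mul_le_mul ?_ hz'.le dist_nonneg (by positivity)
            gcongr
            linarith [le_abs_self B]
        _ ≤ 64 * (|B| + 1) / R ^ 2 * (R ^ 2 / (256 * (|B| + 1) * N)) := by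
            gcongr; exact min_le_right _ _
        _ = 1 / (4 * N) := by field_simp; ring
  have hpos : 0 < ‖(L'.symm : E →L[ℂ] E)‖₊ := L'.nnnorm_symm_pos
  have hc : Subsingleton E ∨ k < ‖(L'.symm : E →L[ℂ] E)‖₊⁻¹ := by
    right
    rw [← NNReal.coe_lt_coe, NNReal.coe_inv, coe_nnnorm, hk, one_div]
    refine inv_strictAnti₀ (lt_of_lt_of_le (by exact_mod_cast hpos) le_rfl) ?_
    linarith
  let P := happ.toOpenPartialHomeomorph g (ball c ρ) hc isOpen_ball
  have hsurj : ball (g c) (3 * ρ / (8 * N)) ⊆ P.target := by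
    refine (ball_subset_closedBall.trans (closedBall_subset_closedBall ?_)).trans
      ((happ.surjOn_closedBall_of_nonlinearRightInverse L'.toNonlinearRightInverse
        (ε := ρ / 2) (b := c) (by linarith) (closedBall_subset_ball (by linarith))).trans
        (image_mono (closedBall_subset_ball (by linarith))))
    have h1 : 1 / N ≤ ((L'.toNonlinearRightInverse.nnnorm : ℝ))⁻¹ := by
      rw [one_div]
      exact inv_anti₀ (by exact_mod_cast hpos) hsym
    rw [hk]
    calc 3 * ρ / (8 * N) = (1 / N - 1 / (4 * N)) * (ρ / 2) := by field_simp; ring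
      _ ≤ _ := by gcongr
  refine ⟨P.symm, P.continuousOn_invFun.mono hsurj, ?_, fun w hw => ⟨?_, ?_⟩⟩
  · exact P.left_inv (mem_ball_self hρ)
  · exact hsub (P.map_target (hsurj hw))
  · exact P.right_inv (hsurj hw)

end Vale.Agent.P300
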