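import Vale.Agent.P300.Psh
import Vale.Agent.P300.Quant

/-!
Sheets of a local biholomorphism `φ : V → E`: continuous sections on balls.
-/

namespace Vale.Agent.P300

open Set Filter Metric
open scoped Manifold ContDiff Topology

variable {E : Type} [NormedAddCommGroup E] [NormedSpace ℂ E]
variable {V : Type} [TopologicalSpace V]

/-- `s` is a continuous section of `φ` on the ball of radius `R` about `φ x` through `x`. -/
def Sheet (φ : V → E) (x : V) (R : ℝ) (s : E → V) : Prop :=
  ContinuousOn s (ball (φ x) R) ∧ s (φ x) = x ∧ ∀ w ∈ ball (φ x) R, φ (s w) = w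

variable {φ : V → E}

theorem section_eventually_inverse (hφ : IsLocalHomeomorph φ) {U : Set E} (hU : IsOpen U)
    {s : E → V} (hs : ContinuousOn s U) (hsec : ∀ w ∈ U, φ (s w) = w) {w : E} (hw : w ∈ U) :
    ∀ᶠ z in 𝓝 (s w), φ z ∈ U ∧ s (φ z) = z := by
  obtain ⟨N, hN, hwN, hinj⟩ := hφ.isLocallyInjective (s w)
  have h1 : ∀ᶠ z in 𝓝 (s w), φ z ∈ U :=
    hφ.continuous.continuousAt.eventually_mem ((hU.mem_nhds (by rw [hsec w hw]; exact hw)))
  have h2 : ContinuousAt (fun z => s (φ z)) (s w) := by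
    refine ContinuousAt.comp ?_ hφ.continuous.continuousAt
    rw [hsec w hw]
    exact hs.continuousAt (hU.mem_nhds hw)
  have h3 : s (φ (s w)) = s w := by rw [hsec w hw]
  filter_upwards [h1, h2.eventually_mem (by rw [h3]; exact hN.mem_nhds hwN), hN.mem_nhds hwN]
    with z hz1 hz2 hz3
  exact ⟨hz1, hinj hz2 hz3 (hsec _ hz1)⟩

theorem isOpen_image_section (hφ : IsLocalHomeomorph φ) {U : Set E} (hU : IsOpen U)
    {s : E → V} (hs : ContinuousOn s U) (hsec : ∀ w ∈ U, φ (s w) = w) : IsOpen (s '' U) := by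
  refine isOpen_iff_mem_nhds.2 ?_
  rintro _ ⟨w, hw, rfl⟩
  filter_upwards [section_eventually_inverse hφ hU hs hsec hw] with z hz
  exact ⟨φ z, hz.1, hz.2⟩

variable [T2Space V]

theorem sections_eqOn (hφ : IsLocalHomeomorph φ) {S : Set E} (hS : IsPreconnected S)
    {s t : E → V} (hs : ContinuousOn s S) (ht : ContinuousOn t S)
    (hsec : ∀ w ∈ S, φ (s w) = w) (htec : ∀ w ∈ S, φ (t w) = w)
    {a : E} (ha : a ∈ S) (he : s a = t a) : EqOn s t S :=
  (T2Space.isSeparatedMap φ).eqOn_of_comp_eqOn hφ.isLocallyInjective hS hs ht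
    (fun w hw => by simp [hsec w hw, htec w hw]) ha he

/-- Points joined by a sheet of radius `3 * r` to a given compact set, within radius `r`,
form a relatively compact set. -/
theorem exists_compact_sheet_ends [ProperSpace E] (hφ : IsLocalHomeomorph φ) {L : Set V}
    (hL : IsCompact L) {r : ℝ} (hr : 0 < r) :
    ∃ L' : Set V, IsCompact L' ∧ ∀ x s, Sheet φ x (3 * r) s →
      ∀ w ∈ closedBall (φ x) r, s w ∈ L → x ∈ L' := by
  classical
  let L1 : Set V := {q | q ∈ L ∧ ∃ s, Sheet φ q (2 * r) s}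
  let L2 : Set V := closure L1
  have hL2 : IsCompact L2 :=
    hL.of_isClosed_subset isClosed_closure (closure_minimal (fun q hq => hq.1) hL.isClosed)
  have hext : ∀ q ∈ L2, ∃ s, Sheet φ q (3 / 2 * r) s := by
    intro q0 hq0
    obtain ⟨P, hq0P, hP⟩ := hφ q0
    have hv : φ q0 ∈ P.target := by rw [hP]; exact P.map_source hq0P
    obtain ⟨e, he, heP⟩ := Metric.isOpen_iff.1 P.open_target _ hv
    let d := min e (r / 4)
    have hd : 0 < d := lt_min he (by linarith)
    have hnhds : P.source ∩ φ ⁻¹' ball (φ q0) d ∈ 𝓝 q0 :=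
      inter_mem (P.open_source.mem_nhds hq0P)
        (hφ.continuous.continuousAt (ball_mem_nhds _ hd))
    obtain ⟨q, ⟨hqP, hqd⟩, hqL, s, hs, hsq, hsec⟩ := mem_closure_iff_nhds.1 hq0 _ hnhds
    have hd4 : d ≤ r / 4 := min_le_right _ _
    have hsub : ball (φ q0) (3 / 2 * r) ⊆ ball (φ q) (2 * r) := by
      refine ball_subset_ball' ?_
      rw [dist_comm]
      have : dist (φ q) (φ q0) < d := hqd
      linarith
    have hsubd : ball (φ q0) d ⊆ ball (φ q0) (3 / 2 * r) := ball_subset_ball (by linarith)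
    have hdP : ball (φ q0) d ⊆ P.target := (ball_subset_ball (min_le_left _ _)).trans heP
    have hPsec : ∀ w ∈ ball (φ q0) d, φ (P.symm w) = w := fun w hw => by
      rw [hP]; exact P.right_inv (hdP hw)
    have := sections_eqOn hφ (convex_ball (φ q0) d).isPreconnected
      (hs.mono (hsubd.trans hsub)) (P.continuousOn_symm.mono hdP)
      (fun w hw => hsec w (hsub (hsubd hw))) hPsec hqd
      (by rw [hsq, hP]; exact (P.left_inv hqP).symm) (mem_ball_self hd)
    refine ⟨s, hs.mono hsub, ?_, fun w hw => hsec w (hsub hw)⟩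
    rw [this, hP, P.left_inv hq0P]
  choose! σ hσ using hext
  let G : V × E → V := fun p => σ p.1 (φ p.1 + p.2)
  have hG : ContinuousOn G (L2 ×ˢ closedBall (0 : E) r) := by
    rintro ⟨q0, d0⟩ ⟨hq0, hd0⟩
    obtain ⟨hs0, hsq0, hsec0⟩ := hσ q0 hq0
    have hev : ∀ᶠ p : V × E in 𝓝 (q0, d0), φ p.1 ∈ ball (φ q0) (r / 4) ∧
        φ p.1 ∈ ball (φ q0) (3 / 2 * r) ∧ σ q0 (φ p.1) = p.1 := by
      suffices h : ∀ᶠ q : V in 𝓝 q0, φ q ∈ ball (φ q0) (r / 4) ∧
          φ q ∈ ball (φ q0) (3 / 2 * r) ∧ σ q0 (φ q) = q from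
        (continuous_fst.tendsto (q0, d0)).eventually h
      have h1 := section_eventually_inverse hφ isOpen_ball hs0 hsec0
        (mem_ball_self (by linarith : (0 : ℝ) < 3 / 2 * r))
      rw [hsq0] at h1
      exact (hφ.continuous.continuousAt.eventually_mem (ball_mem_nhds _ (by linarith))).and h1
    have hcont : ContinuousWithinAt (fun p : V × E => σ q0 (φ p.1 + p.2))
        (L2 ×ˢ closedBall (0 : E) r) (q0, d0) := by
      refine ContinuousAt.continuousWithinAt ?_
      have hmem : φ q0 + d0 ∈ ball (φ q0) (3 / 2 * r) := by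
        rw [mem_ball, dist_self_add_left]
        have := mem_closedBall_zero_iff.1 hd0
        linarith
      exact ContinuousAt.comp (hs0.continuousAt (isOpen_ball.mem_nhds hmem))
        (((hφ.continuous.comp continuous_fst).add continuous_snd).continuousAt)
    refine hcont.congr_of_eventuallyEq ?_ rfl
    filter_upwards [hev.filter_mono nhdsWithin_le_nhds, self_mem_nhdsWithin] with p hp hpm
    obtain ⟨hs, hsq, hsec⟩ := hσ p.1 hpm.1
    obtain ⟨hp1, hp2, hp3⟩ := hp
    let S := ball (φ p.1) (3 / 2 * r) ∩ ball (φ q0) (3 / 2 * r)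
    have hS : IsPreconnected S := ((convex_ball _ _).inter (convex_ball _ _)).isPreconnected
    have ha : φ p.1 ∈ S := ⟨mem_ball_self (by linarith), hp2⟩
    refine sections_eqOn hφ hS (hs.mono inter_subset_left) (hs0.mono inter_subset_right)
      (fun w hw => hsec w hw.1) (fun w hw => hsec0 w hw.2) ha (by rw [hsq, hp3]) ⟨?_, ?_⟩
    · rw [mem_ball, dist_self_add_left]
      have := mem_closedBall_zero_iff.1 hpm.2
      linarith
    · rw [mem_ball]
      refine lt_of_le_of_lt (dist_triangle _ (φ p.1) _) ?_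
      rw [dist_self_add_left]
      have := mem_closedBall_zero_iff.1 hpm.2
      rw [mem_ball] at hp1
      linarith
  refine ⟨G '' (L2 ×ˢ closedBall (0 : E) r),
    (hL2.prod (isCompact_closedBall _ _)).image_of_continuousOn hG, ?_⟩
  intro x s ⟨hs, hsx, hsec⟩ w hw hwL
  have hw3 : w ∈ ball (φ x) (3 * r) := closedBall_subset_ball (by linarith) hw
  have hφw : φ (s w) = w := hsec w hw3
  have hwd : dist w (φ x) ≤ r := hw
  have hsub : ball w (2 * r) ⊆ ball (φ x) (3 * r) := ball_subset_ball' (by linarith)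
  have hq1 : s w ∈ L1 := by
    refine ⟨hwL, s, ?_, ?_, ?_⟩
    · rw [hφw]; exact hs.mono hsub
    · rw [hφw]
    · rw [hφw]; exact fun v hv => hsec v (hsub hv)
  refine ⟨(s w, φ x - w), ⟨subset_closure hq1, ?_⟩, ?_⟩
  · rw [mem_closedBall_zero_iff, ← dist_eq_norm_sub, dist_comm]; exact hwd
  · obtain ⟨hσc, hσq, hσsec⟩ := hσ (s w) (subset_closure hq1)
    rw [hφw] at hσc hσq hσsec
    have hb : ball w (3 / 2 * r) ⊆ ball (φ x) (3 * r) :=
      (ball_subset_ball (by linarith)).trans hsub
    have := sections_eqOn hφ (convex_ball w (3 / 2 * r)).isPreconnected hσc (hs.mono hb) hσsec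
      (fun v hv => hsec v (hb hv)) (mem_ball_self (by linarith)) hσq
    show σ (s w) (φ (s w) + (φ x - w)) = x
    rw [hφw, add_sub_cancel, this (by rw [mem_ball, dist_comm]; linarith), hsx]

end Vale.Agent.P300
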